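import Vale.Agent.P015.R2.H210.Wr

/-!
# P015: positivity inside cells of the frequency plane (modules P4, P3)
-/

namespace Vale.Agent.P015.H210

open Finset hiding box
open Vale.Agent.P001 Vale.Agent.P006.CLS Vale.Agent.P015.H222
open scoped ComplexConjugate

/-- `f` is the characteristic function of a finite probability measure on `ℤ²` -/
def IsChar (f : ℝ → ℝ → ℝ) : Prop :=
  ∃ (κ : Type) (U : Finset κ) (v : κ → ℤ × ℤ) (α : κ → ℝ), (∀ u ∈ U, 0 ≤ α u) ∧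
    ∑ u ∈ U, α u = 1 ∧ ∀ x y, (f x y : ℂ) = ∑ u ∈ U, (α u : ℂ) * e2 x y (v u)

theorem IsChar.one : IsChar (fun _ _ => 1) := by
  refine ⟨Unit, Finset.univ, fun _ => 0, fun _ => 1, by simp, by simp, ?_⟩
  intro x y
  simp [e2_zero_vec]

theorem IsChar.mul {f g : ℝ → ℝ → ℝ} (hf : IsChar f) (hg : IsChar g) :
    IsChar (fun x y => f x y * g x y) := by
  obtain ⟨κ, U, v, α, h1, h2, h3⟩ := hf
  obtain ⟨κ', U', v', α', h1', h2', h3'⟩ := hg
  refine ⟨κ × κ', U ×ˢ U', fun p => v p.1 + v' p.2, fun p => α p.1 * α' p.2, ?_, ?_, ?_⟩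
  · intro p hp
    rw [Finset.mem_product] at hp
    exact mul_nonneg (h1 _ hp.1) (h1' _ hp.2)
  · rw [Finset.sum_product, ← Finset.sum_mul_sum, h2, h2', one_mul]
  · intro x y
    push_cast
    rw [h3, h3', Finset.sum_mul_sum, Finset.sum_product]
    refine Finset.sum_congr rfl (fun i _ => Finset.sum_congr rfl (fun j _ => ?_))
    rw [e2_add]
    ring

theorem IsChar.pow {f : ℝ → ℝ → ℝ} (hf : IsChar f) (k : ℕ) : IsChar (fun x y => f x y ^ k) := by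
  induction k with
  | zero => simpa using IsChar.one
  | succ k ih => simpa only [pow_succ] using ih.mul hf

theorem isChar_hh {W : Finset (ℤ × ℤ)} (hW : W.Nonempty) : IsChar (hh W) := by
  have hn : (W.card : ℝ) ≠ 0 := by
    have := hW.card_pos
    positivity
  refine ⟨(ℤ × ℤ) × (ℤ × ℤ), W ×ˢ W, fun p => p.1 - p.2, fun _ => 1 / (W.card : ℝ) ^ 2, ?_, ?_, ?_⟩
  · intro _ _; positivity
  · rw [Finset.sum_const, Finset.card_product, nsmul_eq_mul]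
    push_cast
    field_simp
  · intro x y
    unfold hh
    rw [Complex.ofReal_div, normsq_eq, es, map_sum, Finset.sum_mul_sum, Finset.sum_product,
      Finset.sum_div]
    refine Finset.sum_congr rfl (fun i _ => ?_)
    rw [Finset.sum_div]
    refine Finset.sum_congr rfl (fun j _ => ?_)
    rw [e2_sub]
    push_cast
    ring

/-- positivity of characteristic functions -/
theorem IsChar.pos {f : ℝ → ℝ → ℝ} (hf : IsChar f) {ι : Type*} (R : Finset ι) (x y e : ι → ℝ) :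
    (∑ i ∈ R, e i * f (x i) (y i)) ^ 2
      ≤ ∑ i ∈ R, ∑ j ∈ R, e i * e j * f (x i - x j) (y i - y j) := by
  obtain ⟨κ, U, v, α, h1, h2, h3⟩ := hf
  set Z : κ → ℂ := fun u => ∑ i ∈ R, (e i : ℂ) * e2 (x i) (y i) (v u) with hZ
  have hA : ((∑ i ∈ R, e i * f (x i) (y i) : ℝ) : ℂ) = ∑ u ∈ U, (α u : ℂ) * Z u := by
    push_cast
    simp only [h3, hZ, Finset.mul_sum]
    rw [Finset.sum_comm]
    refine Finset.sum_congr rfl (fun u _ => Finset.sum_congr rfl (fun i _ => ?_))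
    ring
  have hB : ((∑ i ∈ R, ∑ j ∈ R, e i * e j * f (x i - x j) (y i - y j) : ℝ) : ℂ)
      = ((∑ u ∈ U, α u * ‖Z u‖ ^ 2 : ℝ) : ℂ) := by
    rw [Complex.ofReal_sum, Complex.ofReal_sum]
    have h4 : ∀ u ∈ U, ((α u * ‖Z u‖ ^ 2 : ℝ) : ℂ) = ∑ i ∈ R, ∑ j ∈ R,
        (α u : ℂ) * ((e i : ℂ) * (e j : ℂ) * e2 (x i - x j) (y i - y j) (v u)) := by
      intro u _
      rw [Complex.ofReal_mul, normsq_eq, hZ]
      simp only
      rw [map_sum, Finset.sum_mul_sum, Finset.mul_sum]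
      refine Finset.sum_congr rfl (fun i _ => ?_)
      rw [Finset.mul_sum]
      refine Finset.sum_congr rfl (fun j _ => ?_)
      rw [e2_freq_sub, map_mul, Complex.conj_ofReal]
      ring
    rw [Finset.sum_congr rfl h4, Finset.sum_comm]
    refine Finset.sum_congr rfl (fun i _ => ?_)
    rw [Finset.sum_comm, Complex.ofReal_sum]
    refine Finset.sum_congr rfl (fun j _ => ?_)
    rw [Complex.ofReal_mul, Complex.ofReal_mul, h3, Finset.mul_sum]
    refine Finset.sum_congr rfl (fun u _ => ?_)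
    ring
  have hB' : ∑ i ∈ R, ∑ j ∈ R, e i * e j * f (x i - x j) (y i - y j)
      = ∑ u ∈ U, α u * ‖Z u‖ ^ 2 := by exact_mod_cast hB
  rw [hB']
  have h5 : |∑ i ∈ R, e i * f (x i) (y i)| ≤ ∑ u ∈ U, α u * ‖Z u‖ := by
    have h6 : |∑ i ∈ R, e i * f (x i) (y i)| = ‖((∑ i ∈ R, e i * f (x i) (y i) : ℝ) : ℂ)‖ := by
      rw [Complex.norm_real, Real.norm_eq_abs]
    rw [h6, hA]
    refine (norm_sum_le _ _).trans (Finset.sum_le_sum (fun u hu => ?_))
    rw [norm_mul, Complex.norm_real, Real.norm_eq_abs, abs_of_nonneg (h1 u hu)]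
  have h6 : (∑ u ∈ U, α u * ‖Z u‖) ^ 2 ≤ (∑ u ∈ U, α u) * ∑ u ∈ U, α u * ‖Z u‖ ^ 2 := by
    apply Finset.sum_sq_le_sum_mul_sum_of_sq_le_mul
    · exact h1
    · intro u hu
      exact mul_nonneg (h1 u hu) (by positivity)
    · intro u _
      exact le_of_eq (by ring)
  rw [h2, one_mul] at h6
  refine le_trans ?_ h6
  rw [← sq_abs]
  exact pow_le_pow_left₀ (abs_nonneg _) h5 2

/-- cell of side `1/r` of the frequency plane -/
noncomputable def fc (r : ℝ) (x y : ℝ) : ℤ × ℤ := (⌊r * x⌋, ⌊r * y⌋)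

theorem floor_gap {r : ℝ} (hr : 0 < r) {a b : ℝ} (h : ⌊r * a⌋ + 2 ≤ ⌊r * b⌋) : 1 / r ≤ b - a := by
  have h1 := Int.lt_floor_add_one (r * a)
  have h2 := Int.floor_le (r * b)
  have h3 : ((⌊r * a⌋ + 2 : ℤ) : ℝ) ≤ (⌊r * b⌋ : ℝ) := by exact_mod_cast h
  push_cast at h3
  rw [div_le_iff₀ hr]
  linarith

theorem floor_gap' {r : ℝ} (hr : 0 < r) {a b : ℝ} (hne : ⌊r * a⌋ ≠ ⌊r * b⌋)
    (hpar : ⌊r * a⌋ % 2 = ⌊r * b⌋ % 2) : 1 / r ≤ |a - b| := by
  rcases lt_or_gt_of_ne hne with h | h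
  · have : ⌊r * a⌋ + 2 ≤ ⌊r * b⌋ := by omega
    have h1 := floor_gap hr this
    rw [abs_sub_comm]
    exact h1.trans (le_abs_self _)
  · have : ⌊r * b⌋ + 2 ≤ ⌊r * a⌋ := by omega
    have h1 := floor_gap hr this
    exact h1.trans (le_abs_self _)

theorem same_cell_close {r : ℝ} (hr : 0 < r) {a b : ℝ} (h : ⌊r * a⌋ = ⌊r * b⌋) :
    |a - b| < 1 / r := by
  have h1 := Int.abs_sub_lt_one_of_floor_eq_floor h
  rw [← mul_sub, abs_mul, abs_of_pos hr] at h1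
  rw [lt_div_iff₀ hr]
  linarith

theorem mod_gap {r : ℝ} (hr : 2 ≤ r) {a b x₀ δ₁ : ℝ} (hδ : δ₁ ≤ 1 / 2) (ha : |a - x₀| ≤ δ₁)
    (hb : |b - x₀| ≤ δ₁) (hside : a < x₀ ↔ b < x₀) {m : ℤ} (hm : m ≠ 0) : 1 / r ≤ |a - b - m| := by
  have h1 : 1 / r ≤ 1 / 2 := one_div_le_one_div_of_le (by norm_num) hr
  have h2 : |a - b| ≤ 1 / 2 := by
    rw [abs_le] at ha hb ⊢
    by_cases h : a < x₀
    · have h3 := hside.mp h
      constructor <;> linarith [ha.1, ha.2, hb.1, hb.2]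
    · have h3 : ¬ b < x₀ := fun h4 => h (hside.mpr h4)
      rw [not_lt] at h h3
      constructor <;> linarith [ha.1, ha.2, hb.1, hb.2]
  have h3 : (1 : ℝ) ≤ |(m : ℝ)| := by
    have : (1 : ℤ) ≤ |m| := Int.one_le_abs hm
    exact_mod_cast this
  have h4 : |(m : ℝ)| - |a - b| ≤ |a - b - m| := by
    have := abs_sub_abs_le_abs_sub (m : ℝ) (a - b)
    rw [abs_sub_comm (m : ℝ) (a - b)] at this
    exact this
  linarith

/-- the sum over cells of the maximum of `hh` -/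
theorem sum_rep_le {W : Finset (ℤ × ℤ)} (hW : W.Nonempty) {X : ℝ} (hX : 1 ≤ X) {K : ℕ}
    (dens : ∀ ρ : ℕ, 1 ≤ ρ → ρ ≤ K → ∀ z : ℤ × ℤ,
      ((W.filter (fun w => w - z ∈ box ρ)).card : ℝ) ≤ X * ρ)
    (conn : ∀ ρ : ℕ, ρ ≤ K → ∀ w ∈ W,
      (ρ : ℝ) ≤ X * ((W.filter (fun u => u - w ∈ box ρ)).card : ℝ))
    {r δ₁ : ℝ} (hr : 2 ≤ r) (hrK : r ≤ K) (hδ1 : δ₁ ≤ 1 / 2) (hrδ : 1 / r ≤ δ₁) {x₀ y₀ : ℝ}
    (S : Finset (ℤ × ℤ)) (a b : ℤ × ℤ → ℝ)
    (hball : ∀ c ∈ S, |a c - x₀| ≤ δ₁ ∧ |b c - y₀| ≤ δ₁)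
    (hcell : ∀ c ∈ S, fc r (a c) (b c) = c) :
    ∑ c ∈ S, hh W (a c) (b c) ≤ 16 * C1 * X ^ 2 * (r * δ₁) := by
  classical
  have hr0 : 0 < r := by linarith
  set col : ℤ × ℤ → (Bool × Bool) × (Bool × Bool) := fun c =>
    ((decide (c.1 % 2 = 0), decide (c.2 % 2 = 0)), (decide (a c < x₀), decide (b c < y₀))) with hcol
  have hsplit : ∑ c ∈ S, hh W (a c) (b c)
      = ∑ k : (Bool × Bool) × (Bool × Bool), ∑ c ∈ S.filter (fun c => col c = k), hh W (a c) (b c) := by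
    rw [Finset.sum_fiberwise]
  have hone : ∀ k : (Bool × Bool) × (Bool × Bool),
      ∑ c ∈ S.filter (fun c => col c = k), hh W (a c) (b c) ≤ C1 * X ^ 2 * (δ₁ / (1 / r)) := by
    intro k
    apply wr hW hX dens conn (S.filter (fun c => col c = k)) a b (by positivity)
      (by rw [div_le_one hr0]; linarith) hrδ
      (by rw [one_div, inv_mul_eq_div, le_div_iff₀ hr0]; linarith)
      (fun c hc => hball c (Finset.mem_filter.mp hc).1)
    intro c hc c' hc' hne m n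
    rw [Finset.mem_filter] at hc hc'
    have hkk : col c = col c' := by rw [hc.2, hc'.2]
    simp only [hcol, Prod.mk.injEq, decide_eq_decide] at hkk
    obtain ⟨⟨p1, p2⟩, s1, s2⟩ := hkk
    have e1 := hcell c hc.1
    have e2' := hcell c' hc'.1
    simp only [fc] at e1 e2'
    have e11 : ⌊r * a c⌋ = c.1 := congrArg Prod.fst e1
    have e12 : ⌊r * b c⌋ = c.2 := congrArg Prod.snd e1
    have e21 : ⌊r * a c'⌋ = c'.1 := congrArg Prod.fst e2'
    have e22 : ⌊r * b c'⌋ = c'.2 := congrArg Prod.snd e2'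
    by_cases hm : m = 0
    · by_cases hn : n = 0
      · subst hm; subst hn
        simp only [Int.cast_zero, sub_zero]
        by_cases h1 : c.1 = c'.1
        · have h2 : c.2 ≠ c'.2 := fun h => hne (Prod.ext h1 h)
          refine le_trans ?_ (le_max_right _ _)
          exact floor_gap' hr0 (by rw [e12, e22]; exact h2) (by rw [e12, e22]; omega)
        · refine le_trans ?_ (le_max_left _ _)
          exact floor_gap' hr0 (by rw [e11, e21]; exact h1) (by rw [e11, e21]; omega)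
      · refine le_trans ?_ (le_max_right _ _)
        exact mod_gap hr hδ1 (hball c hc.1).2 (hball c' hc'.1).2 s2 hn
    · refine le_trans ?_ (le_max_left _ _)
      exact mod_gap hr hδ1 (hball c hc.1).1 (hball c' hc'.1).1 s1 hm
  rw [hsplit]
  calc ∑ k : (Bool × Bool) × (Bool × Bool), ∑ c ∈ S.filter (fun c => col c = k), hh W (a c) (b c)
      ≤ ∑ _k : (Bool × Bool) × (Bool × Bool), C1 * X ^ 2 * (δ₁ / (1 / r)) :=
        Finset.sum_le_sum (fun k _ => hone k)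
    _ = 16 * C1 * X ^ 2 * (r * δ₁) := by
        rw [Finset.sum_const, Finset.card_univ]
        simp only [Fintype.card_prod, Fintype.card_bool, nsmul_eq_mul]
        push_cast
        field_simp

/-- **(P4), (P3)**: positivity inside cells of side `1/r`. -/
theorem cell_pos {W : Finset (ℤ × ℤ)} (hW : W.Nonempty) {X : ℝ} (hX : 1 ≤ X) {K : ℕ}
    (dens : ∀ ρ : ℕ, 1 ≤ ρ → ρ ≤ K → ∀ z : ℤ × ℤ,
      ((W.filter (fun w => w - z ∈ box ρ)).card : ℝ) ≤ X * ρ)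
    (conn : ∀ ρ : ℕ, ρ ≤ K → ∀ w ∈ W,
      (ρ : ℝ) ≤ X * ((W.filter (fun u => u - w ∈ box ρ)).card : ℝ))
    (k : ℕ) {r δ₁ : ℝ} (hr : 2 ≤ r) (hrK : r ≤ K) (hδ1 : δ₁ ≤ 1 / 2) (hrδ : 1 / r ≤ δ₁) {x₀ y₀ : ℝ}
    {ι : Type*} (R : Finset ι) (x y e : ι → ℝ) (he : ∀ i ∈ R, 0 ≤ e i)
    (hball : ∀ i ∈ R, |x i - x₀| ≤ δ₁ ∧ |y i - y₀| ≤ δ₁) :
    (∑ i ∈ R, e i * hh W (x i) (y i) ^ (k + 1)) ^ 2
      ≤ 16 * C1 * X ^ 2 * (r * δ₁) *
        ∑ p ∈ (R ×ˢ R).filter (fun p => fc r (x p.1) (y p.1) = fc r (x p.2) (y p.2)),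
          e p.1 * e p.2 * hh W (x p.1 - x p.2) (y p.1 - y p.2) ^ k := by
  classical
  set F : ι → ℤ × ℤ := fun i => fc r (x i) (y i) with hF
  set S := R.image F with hS
  -- the maximal point of each cell
  have hch : ∀ c : ℤ × ℤ, ∃ i : ι ⊕ Unit, c ∈ S → ∃ j, i = Sum.inl j ∧ j ∈ R ∧ F j = c ∧
      ∀ l ∈ R, F l = c → hh W (x l) (y l) ≤ hh W (x j) (y j) := by
    intro c
    by_cases hc : c ∈ S
    · obtain ⟨j0, hj0, hj0c⟩ := Finset.mem_image.mp hc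
      have hne : (R.filter (fun i => F i = c)).Nonempty :=
        ⟨j0, Finset.mem_filter.mpr ⟨hj0, hj0c⟩⟩
      obtain ⟨j, hj, hmax⟩ := Finset.exists_max_image _ (fun i => hh W (x i) (y i)) hne
      rw [Finset.mem_filter] at hj
      exact ⟨Sum.inl j, fun _ => ⟨j, rfl, hj.1, hj.2, fun l hl hlc =>
        hmax l (Finset.mem_filter.mpr ⟨hl, hlc⟩)⟩⟩
    · exact ⟨Sum.inr (), fun h => absurd h hc⟩
  choose rep hrep using hch
  set a : ℤ × ℤ → ℝ := fun c => Sum.elim x (fun _ => 0) (rep c) with ha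
  set b : ℤ × ℤ → ℝ := fun c => Sum.elim y (fun _ => 0) (rep c) with hb
  set M : ℤ × ℤ → ℝ := fun c => hh W (a c) (b c) with hM
  have hM0 : ∀ c, 0 ≤ M c := fun c => hh_nonneg _ _ _
  have hM1 : ∀ c, M c ≤ 1 := fun c => hh_le_one _ _ _
  have hSM : ∑ c ∈ S, M c ≤ 16 * C1 * X ^ 2 * (r * δ₁) := by
    apply sum_rep_le hW hX dens conn hr hrK hδ1 hrδ S a b (x₀ := x₀) (y₀ := y₀)
    · intro c hc
      obtain ⟨j, h1, h2, h3, h4⟩ := hrep c hc
      simp only [ha, hb, h1, Sum.elim_inl]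
      exact hball j h2
    · intro c hc
      obtain ⟨j, h1, h2, h3, h4⟩ := hrep c hc
      simp only [ha, hb, h1, Sum.elim_inl]
      exact h3
  set Q : ℤ × ℤ → ℝ := fun c => ∑ i ∈ R.filter (fun i => F i = c), ∑ j ∈ R.filter (fun i => F i = c),
    e i * e j * hh W (x i - x j) (y i - y j) ^ k with hQ
  have hpos : ∀ c, (∑ i ∈ R.filter (fun i => F i = c), e i * hh W (x i) (y i) ^ k) ^ 2 ≤ Q c :=
    fun c => ((isChar_hh hW).pow k).pos (R.filter (fun i => F i = c)) x y e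
  have hQ0 : ∀ c, 0 ≤ Q c := fun c => (sq_nonneg _).trans (hpos c)
  have hterm : ∀ c ∈ S, ∑ i ∈ R.filter (fun i => F i = c), e i * hh W (x i) (y i) ^ (k + 1)
      ≤ M c * Real.sqrt (Q c) := by
    intro c hc
    obtain ⟨j, h1, h2, h3, h4⟩ := hrep c hc
    have h5 : ∑ i ∈ R.filter (fun i => F i = c), e i * hh W (x i) (y i) ^ (k + 1)
        ≤ M c * ∑ i ∈ R.filter (fun i => F i = c), e i * hh W (x i) (y i) ^ k := by
      rw [Finset.mul_sum]
      refine Finset.sum_le_sum (fun i hi => ?_)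
      rw [Finset.mem_filter] at hi
      have h6 : hh W (x i) (y i) ≤ M c := by
        simp only [hM, ha, hb, h1, Sum.elim_inl]
        exact h4 i hi.1 hi.2
      have h7 : 0 ≤ e i * hh W (x i) (y i) ^ k :=
        mul_nonneg (he i hi.1) (pow_nonneg (hh_nonneg _ _ _) _)
      calc e i * hh W (x i) (y i) ^ (k + 1) = hh W (x i) (y i) * (e i * hh W (x i) (y i) ^ k) := by
            ring
        _ ≤ M c * (e i * hh W (x i) (y i) ^ k) := mul_le_mul_of_nonneg_right h6 h7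
    refine h5.trans (mul_le_mul_of_nonneg_left ?_ (hM0 c))
    exact Real.le_sqrt_of_sq_le (hpos c)
  have hL0 : 0 ≤ ∑ i ∈ R, e i * hh W (x i) (y i) ^ (k + 1) :=
    Finset.sum_nonneg (fun i hi => mul_nonneg (he i hi) (pow_nonneg (hh_nonneg _ _ _) _))
  have hsum : ∑ i ∈ R, e i * hh W (x i) (y i) ^ (k + 1) ≤ ∑ c ∈ S, M c * Real.sqrt (Q c) := by
    rw [← Finset.sum_fiberwise_of_maps_to (s := R) (t := S) (g := F)
      (fun i hi => Finset.mem_image_of_mem _ hi)]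
    exact Finset.sum_le_sum hterm
  have hCS : (∑ c ∈ S, M c * Real.sqrt (Q c)) ^ 2 ≤ (∑ c ∈ S, M c ^ 2) * ∑ c ∈ S, Q c := by
    refine (Finset.sum_mul_sq_le_sq_mul_sq S M (fun c => Real.sqrt (Q c))).trans (le_of_eq ?_)
    congr 1
    exact Finset.sum_congr rfl (fun c _ => Real.sq_sqrt (hQ0 c))
  have hM2 : ∑ c ∈ S, M c ^ 2 ≤ 16 * C1 * X ^ 2 * (r * δ₁) := by
    refine le_trans (Finset.sum_le_sum (fun c _ => ?_)) hSM
    calc M c ^ 2 = M c * M c := by ring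
      _ ≤ M c * 1 := mul_le_mul_of_nonneg_left (hM1 c) (hM0 c)
      _ = M c := mul_one _
  have hQQ : ∑ c ∈ S, Q c
      = ∑ p ∈ (R ×ˢ R).filter (fun p => fc r (x p.1) (y p.1) = fc r (x p.2) (y p.2)),
          e p.1 * e p.2 * hh W (x p.1 - x p.2) (y p.1 - y p.2) ^ k := by
    have h1 : ∀ p ∈ (R ×ˢ R).filter (fun p => fc r (x p.1) (y p.1) = fc r (x p.2) (y p.2)),
        F p.1 ∈ S := by
      intro p hp
      rw [Finset.mem_filter, Finset.mem_product] at hp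
      exact Finset.mem_image_of_mem _ hp.1.1
    rw [← Finset.sum_fiberwise_of_maps_to h1]
    refine Finset.sum_congr rfl (fun c _ => ?_)
    simp only [hQ]
    rw [← Finset.sum_product']
    apply Finset.sum_congr _ (fun _ _ => rfl)
    ext p
    simp only [Finset.mem_product, Finset.mem_filter, hF]
    constructor
    · rintro ⟨⟨h1, h2⟩, h3, h4⟩
      exact ⟨⟨⟨h1, h3⟩, by rw [h2, h4]⟩, h2⟩
    · rintro ⟨⟨⟨h1, h3⟩, h4⟩, h2⟩
      exact ⟨⟨h1, h2⟩, h3, by rw [← h4]; exact h2⟩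
  rw [← hQQ]
  calc (∑ i ∈ R, e i * hh W (x i) (y i) ^ (k + 1)) ^ 2
      ≤ (∑ c ∈ S, M c * Real.sqrt (Q c)) ^ 2 := pow_le_pow_left₀ hL0 hsum 2
    _ ≤ (∑ c ∈ S, M c ^ 2) * ∑ c ∈ S, Q c := hCS
    _ ≤ 16 * C1 * X ^ 2 * (r * δ₁) * ∑ c ∈ S, Q c :=
        mul_le_mul_of_nonneg_right hM2 (Finset.sum_nonneg (fun c _ => hQ0 c))

/-- `hh` at the fractional parts -/
theorem hh_fract (W : Finset (ℤ × ℤ)) (x y : ℝ) : hh W (Int.fract x) (Int.fract y) = hh W x y := by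
  rw [Int.fract, Int.fract, hh_sub_int]

theorem hh_fract_sub (W : Finset (ℤ × ℤ)) (x y x' y' : ℝ) :
    hh W (Int.fract x - Int.fract x') (Int.fract y - Int.fract y') = hh W (x - x') (y - y') := by
  have h1 : Int.fract x - Int.fract x' = (x - x') - ((⌊x⌋ - ⌊x'⌋ : ℤ) : ℝ) := by
    rw [Int.fract, Int.fract]; push_cast; ring
  have h2 : Int.fract y - Int.fract y' = (y - y') - ((⌊y⌋ - ⌊y'⌋ : ℤ) : ℝ) := by
    rw [Int.fract, Int.fract]; push_cast; ring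
  rw [h1, h2, hh_sub_int]

/-- **(P4)** on the torus: arbitrary real frequencies, cells of the fractional parts. -/
theorem cell_pos_torus {W : Finset (ℤ × ℤ)} (hW : W.Nonempty) {X : ℝ} (hX : 1 ≤ X) {K : ℕ}
    (dens : ∀ ρ : ℕ, 1 ≤ ρ → ρ ≤ K → ∀ z : ℤ × ℤ,
      ((W.filter (fun w => w - z ∈ box ρ)).card : ℝ) ≤ X * ρ)
    (conn : ∀ ρ : ℕ, ρ ≤ K → ∀ w ∈ W,
      (ρ : ℝ) ≤ X * ((W.filter (fun u => u - w ∈ box ρ)).card : ℝ))
    (k : ℕ) {r : ℝ} (hr : 2 ≤ r) (hrK : r ≤ K)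
    {ι : Type*} (R : Finset ι) (x y e : ι → ℝ) (he : ∀ i ∈ R, 0 ≤ e i) :
    (∑ i ∈ R, e i * hh W (x i) (y i) ^ (k + 1)) ^ 2
      ≤ 8 * C1 * X ^ 2 * r *
        ∑ p ∈ (R ×ˢ R).filter (fun p => fc r (Int.fract (x p.1)) (Int.fract (y p.1))
            = fc r (Int.fract (x p.2)) (Int.fract (y p.2))),
          e p.1 * e p.2 * hh W (x p.1 - x p.2) (y p.1 - y p.2) ^ k := by
  have hb : ∀ a : ℝ, |Int.fract a - 1 / 2| ≤ 1 / 2 := by
    intro a
    rw [abs_le]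
    constructor <;> linarith [Int.fract_nonneg a, (Int.fract_lt_one a).le]
  have := cell_pos hW hX dens conn k (δ₁ := 1 / 2) hr hrK le_rfl
    (one_div_le_one_div_of_le (by norm_num) hr) (x₀ := 1 / 2) (y₀ := 1 / 2) R
    (fun i => Int.fract (x i)) (fun i => Int.fract (y i)) e he (fun i _ => ⟨hb _, hb _⟩)
  simp only [hh_fract, hh_fract_sub] at this
  refine this.trans (le_of_eq ?_)
  ring

/-- points of one torus cell are close modulo `ℤ` -/
theorem fract_close {r : ℝ} (hr : 0 < r) {a b : ℝ} (h : ⌊r * Int.fract a⌋ = ⌊r * Int.fract b⌋) :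
    |a - b - ((⌊a⌋ - ⌊b⌋ : ℤ) : ℝ)| < 1 / r := by
  have h1 := same_cell_close hr h
  have h2 : a - b - ((⌊a⌋ - ⌊b⌋ : ℤ) : ℝ) = Int.fract a - Int.fract b := by
    rw [Int.fract, Int.fract]; push_cast; ring
  rw [h2]
  exact h1

end Vale.Agent.P015.H210
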