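import Vale.Agent.P015.R2.H210.Cell
import Vale.Agent.P015.R2.H116.Defs

/-!
# P015: adapters of WR and of the cell positivity to `Cv` and complex frequencies
-/

namespace Vale.Agent.P015.H210

open Finset hiding box
open Vale.Agent.P001 Vale.Agent.P006.CLS Vale.Agent.P015.H222
open Vale.Agent.P015.R2.H116 (Cv Reg)

/-- spectrum at a complex frequency (definition of `H116`) -/
theorem hhc_eq (W : Finset (ℤ × ℤ)) (s : ℂ) : R2.H116.hh W s = hh W s.re (-s.im) := rfl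

theorem hhc_nonneg (W : Finset (ℤ × ℤ)) (s : ℂ) : 0 ≤ R2.H116.hh W s := by
  rw [hhc_eq]; exact hh_nonneg _ _ _

theorem hhc_le_one (W : Finset (ℤ × ℤ)) (s : ℂ) : R2.H116.hh W s ≤ 1 := by
  rw [hhc_eq]; exact hh_le_one _ _ _

theorem hhc_neg (W : Finset (ℤ × ℤ)) (s : ℂ) : R2.H116.hh W (-s) = R2.H116.hh W s := by
  rw [hhc_eq, hhc_eq, Complex.neg_re, Complex.neg_im]
  exact hh_neg W _ _

theorem toC_re (z : GaussianInt) : (GaussianInt.toComplex z).re = (z.re : ℝ) :=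
  (GaussianInt.intCast_re z).symm

theorem toC_im (z : GaussianInt) : (GaussianInt.toComplex z).im = (z.im : ℝ) :=
  (GaussianInt.intCast_im z).symm

theorem hhc_sub_gauss (W : Finset (ℤ × ℤ)) (s : ℂ) (z : GaussianInt) :
    R2.H116.hh W (s - GaussianInt.toComplex z) = R2.H116.hh W s := by
  rw [hhc_eq, hhc_eq, Complex.sub_re, Complex.sub_im, toC_re, toC_im]
  have h : -(s.im - (z.im : ℝ)) = -s.im - ((-z.im : ℤ) : ℝ) := by push_cast; ring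
  rw [h, hh_sub_int]

variable {W : Finset (ℤ × ℤ)} {K : ℕ} {Λ : ℝ}

theorem Cv.one_le (hW : Cv W K Λ) : 1 ≤ Λ := by linarith [hW.ten]

theorem Cv.dens' (hW : Cv W K Λ) : ∀ ρ : ℕ, 1 ≤ ρ → ρ ≤ K / 8 → ∀ z : ℤ × ℤ,
    ((W.filter (fun w => w - z ∈ box ρ)).card : ℝ) ≤ Λ * ρ :=
  fun ρ h1 h2 z => hW.up z ρ h1 (by omega)

theorem Cv.conn' (hW : Cv W K Λ) : ∀ ρ : ℕ, ρ ≤ K / 8 → ∀ w ∈ W,
    (ρ : ℝ) ≤ Λ * ((W.filter (fun u => u - w ∈ box ρ)).card : ℝ) :=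
  fun ρ h w hw => hW.low w hw ρ (by omega)

theorem Cv.nonempty (hW : Cv W K Λ) (hK : 1 ≤ K) : W.Nonempty := by
  rw [← Finset.card_pos]
  by_contra h
  have h1 : W.card = 0 := by omega
  have h2 := hW.size
  rw [h1] at h2
  have h3 : (1 : ℝ) ≤ K := by exact_mod_cast hK
  simp only [Nat.cast_zero, mul_zero] at h2
  linarith

theorem div8 (K : ℕ) : (K : ℝ) / 8 - 7 / 8 ≤ ((K / 8 : ℕ) : ℝ) := by
  have h : K ≤ 8 * (K / 8) + 7 := by omega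
  have h1 : (K : ℝ) ≤ 8 * ((K / 8 : ℕ) : ℝ) + 7 := by exact_mod_cast h
  linarith

/-- separation in the complex norm implies separation modulo the lattice -/
theorem sep_of_norm {ι : Type*} (I : Finset ι) (s : ι → ℂ) {δ₁ δ₂ : ℝ} (h1 : ∀ i ∈ I, ‖s i‖ ≤ δ₁)
    (h2 : ∀ i ∈ I, ∀ j ∈ I, i ≠ j → δ₂ ≤ ‖s i - s j‖) (hδ₂ : 0 < δ₂) (hδ₂₁ : δ₂ ≤ δ₁)
    (hδ₁ : δ₁ ≤ 1 / 32) : Sep I (fun i => (s i).re) (fun i => -(s i).im) (7 / 10 * δ₂) := by
  intro i hi j hj hij m n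
  simp only
  have hb : ∀ k ∈ I, |(s k).re| ≤ 1 / 32 ∧ |(s k).im| ≤ 1 / 32 := fun k hk =>
    ⟨((Complex.abs_re_le_norm _).trans (h1 k hk)).trans hδ₁,
      ((Complex.abs_im_le_norm _).trans (h1 k hk)).trans hδ₁⟩
  have hbi := hb i hi
  have hbj := hb j hj
  rw [abs_le, abs_le] at hbi hbj
  have hbig : ∀ (t : ℝ) (m : ℤ), m ≠ 0 → |t| ≤ 1 / 16 → 7 / 10 * δ₂ ≤ |t - m| := by
    intro t m hm ht
    have h3 : (1 : ℝ) ≤ |(m : ℝ)| := by
      have : (1 : ℤ) ≤ |m| := Int.one_le_abs hm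
      exact_mod_cast this
    have h4 : |(m : ℝ)| - |t| ≤ |t - m| := by
      have := abs_sub_abs_le_abs_sub (m : ℝ) t
      rw [abs_sub_comm (m : ℝ) t] at this
      exact this
    linarith
  by_cases hm : m = 0
  · by_cases hn : n = 0
    · subst hm; subst hn
      simp only [Int.cast_zero, sub_zero]
      have h3 := h2 i hi j hj hij
      by_contra hc
      rw [not_le, max_lt_iff] at hc
      have h4 : ‖s i - s j‖ ^ 2 = ((s i).re - (s j).re) ^ 2 + (-(s i).im - -(s j).im) ^ 2 := by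
        rw [← Complex.normSq_eq_norm_sq, Complex.normSq_apply, Complex.sub_re, Complex.sub_im]
        ring
      have h5 : ((s i).re - (s j).re) ^ 2 < (7 / 10 * δ₂) ^ 2 := by
        rw [← sq_abs]; exact pow_lt_pow_left₀ hc.1 (abs_nonneg _) (by norm_num)
      have h6 : (-(s i).im - -(s j).im) ^ 2 < (7 / 10 * δ₂) ^ 2 := by
        rw [← sq_abs]; exact pow_lt_pow_left₀ hc.2 (abs_nonneg _) (by norm_num)
      have h7 : δ₂ ^ 2 ≤ ‖s i - s j‖ ^ 2 := pow_le_pow_left₀ hδ₂.le h3 2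
      nlinarith
    · refine le_trans ?_ (le_max_right _ _)
      apply hbig _ _ hn
      rw [abs_le]
      constructor <;> linarith [hbi.2.1, hbi.2.2, hbj.2.1, hbj.2.2]
  · refine le_trans ?_ (le_max_left _ _)
    apply hbig _ _ hm
    rw [abs_le]
    constructor <;> linarith [hbi.1.1, hbi.1.2, hbj.1.1, hbj.1.2]

/-- **WR** with explicit constant -/
theorem WR' (hW : Cv W K Λ) {ι : Type*} (I : Finset ι)
    (s : ι → ℂ) {δ₁ δ₂ : ℝ} (h1 : ∀ i ∈ I, ‖s i‖ ≤ δ₁)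
    (h2 : ∀ i ∈ I, ∀ j ∈ I, i ≠ j → δ₂ ≤ ‖s i - s j‖)
    (hδ : 16 ≤ K * δ₂) (hδ₂₁ : δ₂ ≤ δ₁) (hδ₁ : δ₁ ≤ 1 / 32) :
    ∑ i ∈ I, R2.H116.hh W (s i) ≤ 2 * C1 * Λ ^ 2 * (δ₁ / δ₂) := by
  have hK0 : (0 : ℝ) ≤ K := Nat.cast_nonneg K
  have hδ₂ : 0 < δ₂ := by
    by_contra h
    rw [not_lt] at h
    nlinarith
  have hKbig : (512 : ℝ) ≤ K := by nlinarith
  have hK1 : 1 ≤ K := by
    have : (1 : ℝ) ≤ K := by linarith
    exact_mod_cast this
  have hC1 := one_le_C1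
  have hΛ := Cv.one_le hW
  have hmain := wr (Cv.nonempty hW hK1) hΛ (K := K / 8) (Cv.dens' hW) (Cv.conn' hW) I
    (fun i => (s i).re) (fun i => -(s i).im) (δ₁ := δ₁) (δ₂ := 7 / 10 * δ₂) (by positivity)
    (by linarith) (by linarith)
    (by
      have h3 := div8 K
      have h4 : (K : ℝ) / 8 - 7 / 8 ≥ 10 / 7 * (K / 16) := by linarith
      have h5 : 7 / 10 * δ₂ * (10 / 7 * (K / 16)) ≤ 7 / 10 * δ₂ * ((K / 8 : ℕ) : ℝ) :=
        mul_le_mul_of_nonneg_left (h4.le.trans h3) (by positivity)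
      refine le_trans ?_ h5
      nlinarith) (x₀ := 0) (y₀ := 0)
    (fun i hi => by
      simp only [sub_zero, abs_neg]
      exact ⟨(Complex.abs_re_le_norm _).trans (h1 i hi), (Complex.abs_im_le_norm _).trans (h1 i hi)⟩)
    (sep_of_norm I s h1 h2 hδ₂ hδ₂₁ hδ₁)
  simp only [hhc_eq]
  refine hmain.trans ?_
  have h3 : δ₁ / (7 / 10 * δ₂) = 10 / 7 * (δ₁ / δ₂) := by field_simp
  rw [h3]
  have h4 : 0 ≤ C1 * Λ ^ 2 * (δ₁ / δ₂) := by
    have : 0 < δ₁ := lt_of_lt_of_le hδ₂ hδ₂₁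
    positivity
  linarith

theorem C1_le (hW : Cv W K Λ) : 2 * C1 * Λ ^ 2 ≤ Λ ^ 8 := by
  have h1 := hW.ten
  have h2 := hW.c0
  have h0 : 0 < Λ := by linarith
  rw [C1]
  have h3 : (31104 : ℝ) ≤ Λ ^ 5 := by
    calc (31104 : ℝ) ≤ 10 ^ 5 := by norm_num
      _ ≤ Λ ^ 5 := pow_le_pow_left₀ (by norm_num) h1 5
  have h4 : 0 ≤ C0 := by linarith [one_le_C0]
  calc 2 * (15552 * C0) * Λ ^ 2 = 31104 * C0 * Λ ^ 2 := by ring
    _ ≤ Λ ^ 5 * Λ * Λ ^ 2 := by gcongr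
    _ = Λ ^ 8 := by ring

/-- **WR** in the form of `Spec` -/
theorem WR (hW : Cv W K Λ) {ι : Type*} (I : Finset ι)
    (s : ι → ℂ) {δ₁ δ₂ : ℝ} (h1 : ∀ i ∈ I, ‖s i‖ ≤ δ₁)
    (h2 : ∀ i ∈ I, ∀ j ∈ I, i ≠ j → δ₂ ≤ ‖s i - s j‖)
    (hδ : 16 ≤ K * δ₂) (hδ₂₁ : δ₂ ≤ δ₁) (hδ₁ : δ₁ ≤ 1 / 32) :
    ∑ i ∈ I, R2.H116.hh W (s i) ≤ Λ ^ 8 * (δ₁ / δ₂) := by
  have hK0 : (0 : ℝ) ≤ K := Nat.cast_nonneg K
  have hδ₂ : 0 < δ₂ := by
    by_contra h
    rw [not_lt] at h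
    nlinarith
  have hpos : 0 ≤ δ₁ / δ₂ := by
    have : 0 < δ₁ := lt_of_lt_of_le hδ₂ hδ₂₁
    positivity
  exact (WR' hW I s h1 h2 hδ hδ₂₁ hδ₁).trans (mul_le_mul_of_nonneg_right (C1_le hW) hpos)

theorem reg (hW : Cv W K Λ) : Reg (R2.H116.hh W) K (Λ ^ 8) :=
  ⟨hhc_nonneg W, hhc_le_one W, hhc_neg W, fun J s _ _ h1 h2 h3 h4 h5 => WR hW J s h1 h2 h3 h4 h5⟩

theorem two_cells {r : ℝ} (hr : 0 < r) {s s' : ℂ}
    (h : fc r s.re (-s.im) = fc r s'.re (-s'.im)) : ‖s - s'‖ ≤ 2 / r := by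
  have h1 := same_cell_close hr (congrArg Prod.fst h)
  have h2 := same_cell_close hr (congrArg Prod.snd h)
  have h3 := Complex.norm_le_abs_re_add_abs_im (s - s')
  have h4 : |(s - s').re| < 1 / r := by rw [Complex.sub_re]; exact h1
  have h5 : |(s - s').im| < 1 / r := by
    rw [Complex.sub_im, ← abs_neg]
    have : -(s.im - s'.im) = -s.im - -s'.im := by ring
    rw [this]; exact h2
  have h6 : 2 / r = 1 / r + 1 / r := by ring
  rw [h6]; linarith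

/-- **(P3)**: positivity in a ball. -/
theorem pos_ball (hW : Cv W K Λ) (k : ℕ) {r δ₁ : ℝ} (hr : 2 ≤ r) (hrK : 16 * r ≤ K)
    (hδ1 : δ₁ ≤ 1 / 2) (hrδ : 1 / r ≤ δ₁) {ι : Type*} [DecidableEq ι]
    (R : Finset ι) (s : ι → ℂ) (e : ι → ℝ) (he : ∀ i ∈ R, 0 ≤ e i)
    (hball : ∀ i ∈ R, ‖s i‖ ≤ δ₁) :
    (∑ i ∈ R, e i * R2.H116.hh W (s i) ^ (k + 1)) ^ 2
      ≤ 16 * C1 * Λ ^ 2 * (r * δ₁) *
        ∑ p ∈ (R ×ˢ R).filter (fun p => ‖s p.1 - s p.2‖ ≤ 2 / r),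
          e p.1 * e p.2 * R2.H116.hh W (s p.1 - s p.2) ^ k := by
  have hr0 : 0 < r := by linarith
  have hK32 : (32 : ℝ) ≤ K := by linarith
  have hK1 : 1 ≤ K := by
    have : (1 : ℝ) ≤ K := by linarith
    exact_mod_cast this
  have hC1 := one_le_C1
  have hΛ := Cv.one_le hW
  have hmain := cell_pos (Cv.nonempty hW hK1) hΛ (K := K / 8) (Cv.dens' hW) (Cv.conn' hW) k hr
    (by have := div8 K; linarith) hδ1 hrδ (x₀ := 0) (y₀ := 0) R
    (fun i => (s i).re) (fun i => -(s i).im) e he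
    (fun i hi => by
      simp only [sub_zero, abs_neg]
      exact ⟨(Complex.abs_re_le_norm _).trans (hball i hi),
        (Complex.abs_im_le_norm _).trans (hball i hi)⟩)
  have hre : ∀ i j, hh W ((s i).re - (s j).re) (-(s i).im - -(s j).im)
      = R2.H116.hh W (s i - s j) := by
    intro i j
    rw [hhc_eq, Complex.sub_re, Complex.sub_im]
    congr 1
    ring
  simp only [hre, ← hhc_eq] at hmain
  refine hmain.trans (mul_le_mul_of_nonneg_left ?_ ?_)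
  · apply Finset.sum_le_sum_of_subset_of_nonneg
    · intro p hp
      rw [Finset.mem_filter] at hp ⊢
      exact ⟨hp.1, two_cells hr0 hp.2⟩
    · intro p hp _
      rw [Finset.mem_filter, Finset.mem_product] at hp
      exact mul_nonneg (mul_nonneg (he _ hp.1.1) (he _ hp.1.2)) (pow_nonneg (hhc_nonneg _ _) _)
  · have : 0 < δ₁ := lt_of_lt_of_le (by positivity) hrδ
    positivity

open Classical in
/-- **(P4)**: positivity on the torus. -/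
theorem pos_torus (hW : Cv W K Λ) (k : ℕ) {r : ℝ} (hr : 2 ≤ r) (hrK : 16 * r ≤ K)
    {ι : Type*} (R : Finset ι) (s : ι → ℂ) (e : ι → ℝ) (he : ∀ i ∈ R, 0 ≤ e i) :
    (∑ i ∈ R, e i * R2.H116.hh W (s i) ^ (k + 1)) ^ 2
      ≤ 8 * C1 * Λ ^ 2 * r *
        ∑ p ∈ (R ×ˢ R).filter (fun p => ∃ z : GaussianInt,
          ‖s p.1 - s p.2 - GaussianInt.toComplex z‖ ≤ 2 / r),
          e p.1 * e p.2 * R2.H116.hh W (s p.1 - s p.2) ^ k := by
  have hr0 : 0 < r := by linarith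
  have hK32 : (32 : ℝ) ≤ K := by linarith
  have hK1 : 1 ≤ K := by
    have : (1 : ℝ) ≤ K := by linarith
    exact_mod_cast this
  have hC1 := one_le_C1
  have hΛ := Cv.one_le hW
  have hmain := cell_pos_torus (Cv.nonempty hW hK1) hΛ (K := K / 8) (Cv.dens' hW) (Cv.conn' hW) k hr
    (by have := div8 K; linarith) R (fun i => (s i).re) (fun i => -(s i).im) e he
  have hre : ∀ i j, hh W ((s i).re - (s j).re) (-(s i).im - -(s j).im)
      = R2.H116.hh W (s i - s j) := by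
    intro i j
    rw [hhc_eq, Complex.sub_re, Complex.sub_im]
    congr 1
    ring
  simp only [hre, ← hhc_eq] at hmain
  refine hmain.trans (mul_le_mul_of_nonneg_left ?_ (by positivity))
  apply Finset.sum_le_sum_of_subset_of_nonneg
  · intro p hp
    rw [Finset.mem_filter] at hp ⊢
    refine ⟨hp.1, ⟨⌊(s p.1).re⌋ - ⌊(s p.2).re⌋, -(⌊-(s p.1).im⌋ - ⌊-(s p.2).im⌋)⟩, ?_⟩
    have h1 := fract_close hr0 (congrArg Prod.fst hp.2)
    have h2 := fract_close hr0 (congrArg Prod.snd hp.2)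
    have h3 := Complex.norm_le_abs_re_add_abs_im (s p.1 - s p.2 - GaussianInt.toComplex
      ⟨⌊(s p.1).re⌋ - ⌊(s p.2).re⌋, -(⌊-(s p.1).im⌋ - ⌊-(s p.2).im⌋)⟩)
    simp only [Complex.sub_re, Complex.sub_im, toC_re, toC_im] at h3
    have h4 : (s p.1).im - (s p.2).im - ((-(⌊-(s p.1).im⌋ - ⌊-(s p.2).im⌋) : ℤ) : ℝ)
        = -(-(s p.1).im - -(s p.2).im - ((⌊-(s p.1).im⌋ - ⌊-(s p.2).im⌋ : ℤ) : ℝ)) := by
      push_cast; ring
    rw [h4, abs_neg] at h3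
    have h6 : 2 / r = 1 / r + 1 / r := by ring
    rw [h6]; linarith
  · intro p hp _
    rw [Finset.mem_filter, Finset.mem_product] at hp
    exact mul_nonneg (mul_nonneg (he _ hp.1.1) (he _ hp.1.2)) (pow_nonneg (hhc_nonneg _ _) _)

end Vale.Agent.P015.H210
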