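import Vale.Agent.P015.R2.H222.Freq

/-!
# P015: local large sieve for the spectrum of a connected set (module WR)

`hh W x y = ‖∑_{w ∈ W} e(x w₁ + y w₂)‖² / |W|²`.  If `W` is locally sparse (`dens`) and connected
(`conn`) then the sum of `hh` over a `δ₂`-separated family in a ball of radius `δ₁` is
`O(X² δ₁ / δ₂)`.
-/

namespace Vale.Agent.P015.H210

open Finset hiding box
open Vale.Agent.P001 Vale.Agent.P006.CLS Vale.Agent.P015.H222
open scoped ComplexConjugate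

/-- exponential sum -/
noncomputable def es (W : Finset (ℤ × ℤ)) (x y : ℝ) : ℂ := ∑ w ∈ W, e2 x y w

/-- normalised square of the exponential sum -/
noncomputable def hh (W : Finset (ℤ × ℤ)) (x y : ℝ) : ℝ := ‖es W x y‖ ^ 2 / (W.card : ℝ) ^ 2

theorem mem_box' {L : ℕ} {w : ℤ × ℤ} :
    w ∈ box L ↔ (-(L : ℤ) ≤ w.1 ∧ w.1 ≤ L) ∧ (-(L : ℤ) ≤ w.2 ∧ w.2 ≤ L) := by
  rw [box, Finset.mem_product, Finset.mem_Icc, Finset.mem_Icc]

theorem norm_es_le (W : Finset (ℤ × ℤ)) (x y : ℝ) : ‖es W x y‖ ≤ W.card := by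
  rw [es]
  refine (norm_sum_le _ _).trans ?_
  simp [norm_e2]

theorem hh_nonneg (W : Finset (ℤ × ℤ)) (x y : ℝ) : 0 ≤ hh W x y := by
  unfold hh; positivity

theorem hh_le_one (W : Finset (ℤ × ℤ)) (x y : ℝ) : hh W x y ≤ 1 := by
  unfold hh
  apply div_le_one_of_le₀ _ (by positivity)
  exact pow_le_pow_left₀ (norm_nonneg _) (norm_es_le W x y) 2

theorem e2_zero (w : ℤ × ℤ) : e2 0 0 w = 1 := by
  rw [e2, mul_zero, mul_zero, add_zero, ee_zero]

theorem e2_zero_vec (x y : ℝ) : e2 x y 0 = 1 := by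
  rw [e2]
  simp [ee_zero]

theorem e2_add_int (x y : ℝ) (m n : ℤ) (w : ℤ × ℤ) : e2 (x + m) (y + n) w = e2 x y w := by
  unfold e2
  have h : (w.1 : ℝ) * (x + m) + w.2 * (y + n) = (w.1 * x + w.2 * y) + ((w.1 * m + w.2 * n : ℤ) : ℝ) := by
    push_cast; ring
  rw [h, ee_add, ee_int, mul_one]

theorem e2_mul (x y x' y' : ℝ) (w : ℤ × ℤ) : e2 (x + x') (y + y') w = e2 x y w * e2 x' y' w := by
  unfold e2
  rw [← ee_add]
  congr 1
  ring

theorem e2_neg (x y : ℝ) (w : ℤ × ℤ) : e2 (-x) (-y) w = conj (e2 x y w) := by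
  unfold e2
  rw [← ee_neg]
  congr 1
  ring

theorem e2_freq_sub (x y x' y' : ℝ) (w : ℤ × ℤ) :
    e2 (x - x') (y - y') w = e2 x y w * conj (e2 x' y' w) := by
  rw [sub_eq_add_neg, sub_eq_add_neg, e2_mul, e2_neg]

theorem hh_add_int (W : Finset (ℤ × ℤ)) (x y : ℝ) (m n : ℤ) : hh W (x + m) (y + n) = hh W x y := by
  unfold hh es
  simp only [e2_add_int]

theorem hh_sub_int (W : Finset (ℤ × ℤ)) (x y : ℝ) (m n : ℤ) : hh W (x - m) (y - n) = hh W x y := by
  have := hh_add_int W x y (-m) (-n)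
  rw [← this]
  push_cast
  congr 1

theorem hh_neg (W : Finset (ℤ × ℤ)) (x y : ℝ) : hh W (-x) (-y) = hh W x y := by
  unfold hh es
  have : ∑ w ∈ W, e2 (-x) (-y) w = conj (∑ w ∈ W, e2 x y w) := by
    rw [map_sum]
    exact Finset.sum_congr rfl (fun w _ => e2_neg x y w)
  rw [this, Complex.norm_conj]

theorem hh_zero {W : Finset (ℤ × ℤ)} (hW : W.Nonempty) : hh W 0 0 = 1 := by
  unfold hh es
  simp only [e2_zero]
  have h : (W.card : ℝ) ≠ 0 := by
    have := hW.card_pos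
    positivity
  simp only [Finset.sum_const, nsmul_eq_mul, mul_one, Complex.norm_natCast]
  field_simp

/-! ### cells of the plane -/

/-- cell of side `s` containing `w` -/
def pc (s : ℕ) (w : ℤ × ℤ) : ℤ × ℤ := (w.1 / s, w.2 / s)

/-- the part of `W` in the cell `B` -/
def pt (s : ℕ) (W : Finset (ℤ × ℤ)) (B : ℤ × ℤ) : Finset (ℤ × ℤ) := W.filter (fun w => pc s w = B)

theorem pt_subset (s : ℕ) (W : Finset (ℤ × ℤ)) (B : ℤ × ℤ) : pt s W B ⊆ W :=
  Finset.filter_subset _ _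

theorem ediv_eq_bound {s : ℕ} (hs : 0 < s) {a b : ℤ} (h : a / (s : ℤ) = b) :
    b * s ≤ a ∧ a < b * s + s := by
  have hs' : (0 : ℤ) < s := by exact_mod_cast hs
  have h1 := Int.emod_add_mul_ediv a s
  have h2 := Int.emod_nonneg a hs'.ne'
  have h3 := Int.emod_lt_of_pos a hs'
  rw [h] at h1
  constructor <;> nlinarith

theorem pt_box {s : ℕ} (hs : 0 < s) {W : Finset (ℤ × ℤ)} {B w : ℤ × ℤ}
    (hw : w ∈ pt s W B) : w - (B.1 * s, B.2 * s) ∈ box s := by
  rw [pt, Finset.mem_filter] at hw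
  have h := hw.2
  rw [pc] at h
  have h1 := ediv_eq_bound hs (congrArg Prod.fst h)
  have h2 := ediv_eq_bound hs (congrArg Prod.snd h)
  rw [mem_box']
  simp only [Prod.fst_sub, Prod.snd_sub]
  constructor <;> constructor <;> linarith [h1.1, h1.2, h2.1, h2.2]

theorem ediv_near {s : ℕ} (hs : 0 < s) {a b : ℤ} (h1 : -(s : ℤ) ≤ a - b) (h2 : a - b ≤ s) :
    b / (s : ℤ) - a / (s : ℤ) ∈ Finset.Icc (-1 : ℤ) 1 := by
  have ha := ediv_eq_bound hs (rfl : a / (s : ℤ) = a / s)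
  have hb := ediv_eq_bound hs (rfl : b / (s : ℤ) = b / s)
  have hs' : (0 : ℤ) < s := by exact_mod_cast hs
  rw [Finset.mem_Icc]
  constructor
  · by_contra hc
    rw [not_le] at hc
    have : b / (s : ℤ) - a / s ≤ -2 := by omega
    nlinarith [ha.1, ha.2, hb.1, hb.2]
  · by_contra hc
    rw [not_le] at hc
    have : 2 ≤ b / (s : ℤ) - a / s := by omega
    nlinarith [ha.1, ha.2, hb.1, hb.2]

/-- few cells meet a connected set -/
theorem cells_card {s : ℕ} (hs : 0 < s) {W : Finset (ℤ × ℤ)} {X : ℝ} (hX : 0 ≤ X)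
    (hconn : ∀ w ∈ W, (s : ℝ) ≤ X * ((W.filter (fun u => u - w ∈ box s)).card : ℝ)) :
    ((W.image (pc s)).card : ℝ) * s ≤ 9 * X * W.card := by
  classical
  have hch : ∀ B : ℤ × ℤ, ∃ w : ℤ × ℤ, B ∈ W.image (pc s) → w ∈ W ∧ pc s w = B := by
    intro B
    by_cases hB : B ∈ W.image (pc s)
    · obtain ⟨w, hw, hwB⟩ := Finset.mem_image.mp hB
      exact ⟨w, fun _ => ⟨hw, hwB⟩⟩
    · exact ⟨0, fun h => absurd h hB⟩
  choose rep hrep using hch
  have h1 : ((W.image (pc s)).card : ℝ) * s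
      ≤ ∑ B ∈ W.image (pc s), X * ((W.filter (fun u => u - rep B ∈ box s)).card : ℝ) := by
    rw [← nsmul_eq_mul, ← Finset.sum_const]
    exact Finset.sum_le_sum (fun B hB => hconn _ (hrep B hB).1)
  refine h1.trans ?_
  rw [← Finset.mul_sum]
  have h2 : ∑ B ∈ W.image (pc s), (W.filter (fun u => u - rep B ∈ box s)).card
      = ∑ u ∈ W, ((W.image (pc s)).filter (fun B => u - rep B ∈ box s)).card := by
    simp only [Finset.card_filter]
    exact Finset.sum_comm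
  have h3 : ∀ u ∈ W, ((W.image (pc s)).filter (fun B => u - rep B ∈ box s)).card ≤ 9 := by
    intro u _
    have h4 : ((W.image (pc s)).filter (fun B => u - rep B ∈ box s)).card
        ≤ (Finset.Icc (-1 : ℤ) 1 ×ˢ Finset.Icc (-1 : ℤ) 1).card := by
      apply Finset.card_le_card_of_injOn (fun B => B - pc s u)
      · intro B hB
        rw [Finset.mem_coe, Finset.mem_filter] at hB
        rw [Finset.mem_coe, Finset.mem_product]
        have h5 := (hrep B hB.1).2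
        have h6 := mem_box'.mp hB.2
        simp only [Prod.fst_sub, Prod.snd_sub] at h6 ⊢
        have h7 : B.1 = (rep B).1 / s := by rw [← h5]; simp only [pc]; rw [← pc, h5]
        have h8 : B.2 = (rep B).2 / s := by rw [← h5]; simp only [pc]; rw [← pc, h5]
        rw [h7, h8]
        exact ⟨ediv_near hs h6.1.1 h6.1.2, ediv_near hs h6.2.1 h6.2.2⟩
      · intro B _ B' _ h
        exact sub_left_injective h
    exact h4.trans (by rw [Finset.card_product, Int.card_Icc]; decide)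
  have h4 : ∑ B ∈ W.image (pc s), (W.filter (fun u => u - rep B ∈ box s)).card ≤ 9 * W.card := by
    rw [h2]
    calc ∑ u ∈ W, ((W.image (pc s)).filter (fun B => u - rep B ∈ box s)).card
        ≤ ∑ _u ∈ W, 9 := Finset.sum_le_sum h3
      _ = 9 * W.card := by rw [Finset.sum_const, smul_eq_mul, mul_comm]
  have h5 : (∑ B ∈ W.image (pc s), ((W.filter (fun u => u - rep B ∈ box s)).card : ℝ))
      ≤ 9 * W.card := by exact_mod_cast h4
  calc X * ∑ B ∈ W.image (pc s), ((W.filter (fun u => u - rep B ∈ box s)).card : ℝ)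
      ≤ X * (9 * W.card) := mul_le_mul_of_nonneg_left h5 hX
    _ = 9 * X * W.card := by ring

theorem es_split (s : ℕ) (W : Finset (ℤ × ℤ)) (x y : ℝ) :
    es W x y = ∑ B ∈ W.image (pc s), es (pt s W B) x y := by
  unfold es pt
  rw [Finset.sum_fiberwise_of_maps_to (fun w hw => Finset.mem_image_of_mem _ hw)]

theorem card_split (s : ℕ) (W : Finset (ℤ × ℤ)) :
    ∑ B ∈ W.image (pc s), ((pt s W B).card : ℝ) = W.card := by
  have := Finset.card_eq_sum_card_fiberwise (s := W) (t := W.image (pc s)) (f := pc s)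
    (fun w hw => Finset.mem_image_of_mem _ hw)
  rw [this]
  push_cast
  rfl

/-- `hh` is controlled by the local exponential sums -/
theorem hh_le_local {s : ℕ} (hs : 0 < s) {W : Finset (ℤ × ℤ)} (hW : W.Nonempty) {X : ℝ} (hX : 0 ≤ X)
    (hconn : ∀ w ∈ W, (s : ℝ) ≤ X * ((W.filter (fun u => u - w ∈ box s)).card : ℝ)) (x y : ℝ) :
    hh W x y ≤ 9 * X / (s * W.card) * ∑ B ∈ W.image (pc s), ‖es (pt s W B) x y‖ ^ 2 := by
  have hn : (0 : ℝ) < W.card := by exact_mod_cast hW.card_pos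
  have hs' : (0 : ℝ) < s := by exact_mod_cast hs
  have h1 : ‖es W x y‖ ^ 2 ≤ ((W.image (pc s)).card : ℝ) *
      ∑ B ∈ W.image (pc s), ‖es (pt s W B) x y‖ ^ 2 := by
    rw [es_split s W]
    have h2 : ‖∑ B ∈ W.image (pc s), es (pt s W B) x y‖ ≤ ∑ B ∈ W.image (pc s), ‖es (pt s W B) x y‖ :=
      norm_sum_le _ _
    calc ‖∑ B ∈ W.image (pc s), es (pt s W B) x y‖ ^ 2
        ≤ (∑ B ∈ W.image (pc s), ‖es (pt s W B) x y‖) ^ 2 :=
          pow_le_pow_left₀ (norm_nonneg _) h2 2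
      _ ≤ _ := sq_sum_le_card_mul_sum_sq
  have h3 := cells_card hs hX hconn
  set E := ∑ B ∈ W.image (pc s), ‖es (pt s W B) x y‖ ^ 2 with hE
  have hE0 : 0 ≤ E := Finset.sum_nonneg (fun _ _ => by positivity)
  unfold hh
  rw [div_le_iff₀ (by positivity)]
  have h4 : ((W.image (pc s)).card : ℝ) ≤ 9 * X * W.card / s := by
    rw [le_div_iff₀ hs']; exact h3
  calc ‖es W x y‖ ^ 2 ≤ ((W.image (pc s)).card : ℝ) * E := h1
    _ ≤ (9 * X * W.card / s) * E := mul_le_mul_of_nonneg_right h4 hE0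
    _ = 9 * X / (s * W.card) * E * (W.card : ℝ) ^ 2 := by
        field_simp

/-! ### smoothing -/

/-- `[0,t)²` -/
noncomputable def sq (t : ℕ) : Finset (ℤ × ℤ) := Finset.Ico (0 : ℤ) t ×ˢ Finset.Ico (0 : ℤ) t

theorem card_sq (t : ℕ) : ((sq t).card : ℝ) = (t : ℝ) ^ 2 := by
  rw [sq, Finset.card_product, Int.card_Ico]
  simp
  ring

theorem mem_sq {t : ℕ} {v : ℤ × ℤ} : v ∈ sq t ↔ (0 ≤ v.1 ∧ v.1 < t) ∧ (0 ≤ v.2 ∧ v.2 < t) := by
  rw [sq, Finset.mem_product, Finset.mem_Ico, Finset.mem_Ico]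

theorem re_ee (t : ℝ) : (ee t).re = Real.cos (2 * Real.pi * t) := by
  unfold ee
  rw [mul_comm, Complex.exp_ofReal_mul_I_re]

/-- lower bound for the smoothing factor -/
theorem es_sq_ge {t : ℕ} (ht : 0 < t) {a b : ℝ}
    (h : t = 1 ∨ (12 * (t : ℝ) * |a| ≤ 1 ∧ 12 * (t : ℝ) * |b| ≤ 1)) :
    (t : ℝ) ^ 2 / 2 ≤ ‖es (sq t) a b‖ := by
  rcases h with rfl | ⟨ha, hb⟩
  · have h1 : sq 1 = {(0 : ℤ × ℤ)} := by
      ext v
      rw [mem_sq, Finset.mem_singleton]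
      constructor
      · rintro ⟨⟨h1, h2⟩, h3, h4⟩
        ext
        · simp only [Prod.fst_zero]; push_cast at h2; omega
        · simp only [Prod.snd_zero]; push_cast at h4; omega
      · rintro rfl
        simp
    rw [es, h1, Finset.sum_singleton, e2_zero_vec]
    norm_num
  · have h1 : ∀ v ∈ sq t, 1 / 2 ≤ (e2 a b v).re := by
      intro v hv
      rw [mem_sq] at hv
      rw [e2, re_ee]
      have hv1 : |(v.1 : ℝ)| ≤ t := by
        rw [abs_of_nonneg (by exact_mod_cast hv.1.1)]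
        exact_mod_cast hv.1.2.le
      have hv2 : |(v.2 : ℝ)| ≤ t := by
        rw [abs_of_nonneg (by exact_mod_cast hv.2.1)]
        exact_mod_cast hv.2.2.le
      have h2 : |(v.1 : ℝ) * a + v.2 * b| ≤ 1 / 6 := by
        calc |(v.1 : ℝ) * a + v.2 * b| ≤ |(v.1 : ℝ) * a| + |(v.2 : ℝ) * b| := abs_add_le _ _
          _ = |(v.1 : ℝ)| * |a| + |(v.2 : ℝ)| * |b| := by rw [abs_mul, abs_mul]
          _ ≤ t * |a| + t * |b| := by gcongr
          _ ≤ 1 / 6 := by linarith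
      have h3 : |2 * Real.pi * ((v.1 : ℝ) * a + v.2 * b)| ≤ Real.pi / 3 := by
        rw [abs_mul, abs_of_pos (by positivity)]
        have := Real.pi_pos
        nlinarith
      rw [← Real.cos_abs]
      have h4 : Real.cos (Real.pi / 3) ≤ Real.cos |2 * Real.pi * ((v.1 : ℝ) * a + v.2 * b)| := by
        apply Real.cos_le_cos_of_nonneg_of_le_pi (abs_nonneg _) _ h3
        linarith [Real.pi_pos]
      rw [Real.cos_pi_div_three] at h4
      exact h4
    have h2 : (t : ℝ) ^ 2 / 2 ≤ (es (sq t) a b).re := by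
      rw [es, Complex.re_sum]
      calc (t : ℝ) ^ 2 / 2 = ∑ _v ∈ sq t, (1 / 2 : ℝ) := by
            rw [Finset.sum_const, nsmul_eq_mul, card_sq]; ring
        _ ≤ ∑ v ∈ sq t, (e2 a b v).re := Finset.sum_le_sum h1
    exact h2.trans (Complex.re_le_norm _)

/-- local large sieve for one cell -/
theorem cell_ls {ι : Type*} (R : Finset ι) (x y : ι → ℝ) {δ δ₁ : ℝ} (hδ : 0 < δ)
    (hδ1 : δ ≤ 1) (hsep : Sep R x y δ) {x₀ y₀ : ℝ}
    (hball : ∀ i ∈ R, |x i - x₀| ≤ δ₁ ∧ |y i - y₀| ≤ δ₁) {t : ℕ} (ht : 0 < t)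
    (htd : t = 1 ∨ 12 * (t : ℝ) * δ₁ ≤ 1) (s : ℕ) (n₀ : ℤ × ℤ) (V : Finset (ℤ × ℤ))
    (hV : ∀ w ∈ V, w - n₀ ∈ box s) {ν : ℝ}
    (hν : ∀ z : ℤ × ℤ, ((V.filter (fun w => w - z ∈ box t)).card : ℝ) ≤ ν) :
    ∑ i ∈ R, ‖es V (x i) (y i)‖ ^ 2
      ≤ 4 * C0 * (((s + t : ℕ) : ℝ) + 1 / δ) ^ 2 * ν * V.card / (t : ℝ) ^ 2 := by
  classical
  have ht' : (0 : ℝ) < t := by exact_mod_cast ht
  set T : Finset (ℤ × ℤ) := (V ×ˢ sq t).image (fun p => p.1 + p.2) with hT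
  set c : ℤ × ℤ → ℂ := fun z => ∑ p ∈ (V ×ˢ sq t).filter (fun p => p.1 + p.2 = z),
    conj (e2 x₀ y₀ p.2) with hc
  have hcnt : ∀ z : ℤ × ℤ, (((V ×ˢ sq t).filter (fun p => p.1 + p.2 = z)).card : ℝ) ≤ ν := by
    intro z
    refine le_trans ?_ (hν z)
    norm_cast
    apply Finset.card_le_card_of_injOn (fun p => p.1)
    · intro p hp
      rw [Finset.mem_coe, Finset.mem_filter, Finset.mem_product] at hp
      rw [Finset.mem_coe, Finset.mem_filter]
      refine ⟨hp.1.1, ?_⟩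
      have h1 : p.1 - z = -p.2 := by rw [← hp.2]; abel
      rw [h1, mem_box']
      have h2 := mem_sq.mp hp.1.2
      simp only [Prod.fst_neg, Prod.snd_neg]
      omega
    · intro p hp q hq h
      rw [Finset.mem_coe, Finset.mem_filter] at hp hq
      simp only at h
      have h1 : p.2 = q.2 := by
        have h2 : p.1 + p.2 = q.1 + q.2 := by rw [hp.2, hq.2]
        rw [h] at h2
        exact add_left_cancel h2
      exact Prod.ext h h1
  have hcn : ∀ z : ℤ × ℤ, ‖c z‖ ≤ (((V ×ˢ sq t).filter (fun p => p.1 + p.2 = z)).card : ℝ) := by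
    intro z
    rw [hc]
    refine (norm_sum_le _ _).trans ?_
    simp [norm_e2]
  have hcs : ∑ z ∈ T, ‖c z‖ ^ 2 ≤ ν * (V.card * (t : ℝ) ^ 2) := by
    have h1 : ∑ z ∈ T, (((V ×ˢ sq t).filter (fun p => p.1 + p.2 = z)).card : ℝ)
        = V.card * (t : ℝ) ^ 2 := by
      rw [← card_sq t]
      have := Finset.card_eq_sum_card_fiberwise (s := V ×ˢ sq t) (t := T)
        (f := fun p : (ℤ × ℤ) × (ℤ × ℤ) => p.1 + p.2)
        (fun p hp => Finset.mem_image_of_mem _ hp)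
      rw [Finset.card_product] at this
      exact_mod_cast this.symm
    rw [← h1, Finset.mul_sum]
    refine Finset.sum_le_sum (fun z _ => ?_)
    calc ‖c z‖ ^ 2 = ‖c z‖ * ‖c z‖ := by ring
      _ ≤ ν * (((V ×ˢ sq t).filter (fun p => p.1 + p.2 = z)).card : ℝ) := by
          apply mul_le_mul ((hcn z).trans (hcnt z)) (hcn z) (norm_nonneg _)
          exact le_trans (Nat.cast_nonneg _) (hcnt z)
  have hls := primal_ls R x y hδ hδ1 hsep (s + t) n₀ T (by
    intro w hw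
    rw [hT, Finset.mem_image] at hw
    obtain ⟨p, hp, rfl⟩ := hw
    rw [Finset.mem_product] at hp
    have h1 := mem_box'.mp (hV _ hp.1)
    have h2 := mem_sq.mp hp.2
    rw [mem_box']
    simp only [Prod.fst_sub, Prod.snd_sub, Prod.fst_add, Prod.snd_add] at h1 ⊢
    push_cast
    omega) c
  have hid : ∀ i, ∑ z ∈ T, c z * e2 (x i) (y i) z
      = es V (x i) (y i) * es (sq t) (x i - x₀) (y i - y₀) := by
    intro i
    have h1 : ∀ z ∈ T, c z * e2 (x i) (y i) z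
        = ∑ p ∈ (V ×ˢ sq t).filter (fun p => p.1 + p.2 = z),
          e2 (x i) (y i) p.1 * e2 (x i - x₀) (y i - y₀) p.2 := by
      intro z _
      rw [hc]
      simp only
      rw [Finset.sum_mul]
      refine Finset.sum_congr rfl (fun p hp => ?_)
      rw [Finset.mem_filter] at hp
      rw [← hp.2, e2_add, e2_freq_sub]
      ring
    rw [Finset.sum_congr rfl h1,
      Finset.sum_fiberwise_of_maps_to (fun p hp => Finset.mem_image_of_mem _ hp),
      es, es, Finset.sum_mul_sum, Finset.sum_product]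
  simp only [hid, norm_mul, mul_pow] at hls
  have hlow : ∀ i ∈ R, ‖es V (x i) (y i)‖ ^ 2 * ((t : ℝ) ^ 4 / 4)
      ≤ ‖es V (x i) (y i)‖ ^ 2 * ‖es (sq t) (x i - x₀) (y i - y₀)‖ ^ 2 := by
    intro i hi
    apply mul_le_mul_of_nonneg_left _ (by positivity)
    have h1 : (t : ℝ) ^ 2 / 2 ≤ ‖es (sq t) (x i - x₀) (y i - y₀)‖ := by
      apply es_sq_ge ht
      rcases htd with h | h
      · exact Or.inl h
      · right
        obtain ⟨h2, h3⟩ := hball i hi
        constructor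
        · exact le_trans (mul_le_mul_of_nonneg_left h2 (by positivity)) h
        · exact le_trans (mul_le_mul_of_nonneg_left h3 (by positivity)) h
    calc (t : ℝ) ^ 4 / 4 = ((t : ℝ) ^ 2 / 2) ^ 2 := by ring
      _ ≤ _ := pow_le_pow_left₀ (by positivity) h1 2
  have h5 : (∑ i ∈ R, ‖es V (x i) (y i)‖ ^ 2) * ((t : ℝ) ^ 4 / 4)
      ≤ C0 * (((s + t : ℕ) : ℝ) + 1 / δ) ^ 2 * (ν * (V.card * (t : ℝ) ^ 2)) := by
    rw [Finset.sum_mul]
    refine (Finset.sum_le_sum hlow).trans (hls.trans ?_)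
    apply mul_le_mul_of_nonneg_left hcs
    have := one_le_C0
    positivity
  rw [le_div_iff₀ (by positivity)]
  have h6 : (∑ i ∈ R, ‖es V (x i) (y i)‖ ^ 2) * (t : ℝ) ^ 2 * ((t : ℝ) ^ 2 / 4)
      ≤ (4 * C0 * (((s + t : ℕ) : ℝ) + 1 / δ) ^ 2 * ν * V.card) * ((t : ℝ) ^ 2 / 4) := by
    calc (∑ i ∈ R, ‖es V (x i) (y i)‖ ^ 2) * (t : ℝ) ^ 2 * ((t : ℝ) ^ 2 / 4)
        = (∑ i ∈ R, ‖es V (x i) (y i)‖ ^ 2) * ((t : ℝ) ^ 4 / 4) := by ring
      _ ≤ _ := h5
      _ = _ := by ring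
  exact le_of_mul_le_mul_right h6 (by positivity)

/-- the constant of `wr` -/
noncomputable def C1 : ℝ := 15552 * C0

theorem one_le_C1 : 1 ≤ C1 := by
  rw [C1]
  have := one_le_C0
  linarith

/-- **(WR)** -/
theorem wr {W : Finset (ℤ × ℤ)} (hW : W.Nonempty) {X : ℝ} (hX : 1 ≤ X) {K : ℕ}
    (dens : ∀ ρ : ℕ, 1 ≤ ρ → ρ ≤ K → ∀ z : ℤ × ℤ,
      ((W.filter (fun w => w - z ∈ box ρ)).card : ℝ) ≤ X * ρ)
    (conn : ∀ ρ : ℕ, ρ ≤ K → ∀ w ∈ W,
      (ρ : ℝ) ≤ X * ((W.filter (fun u => u - w ∈ box ρ)).card : ℝ))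
    {ι : Type*} (R : Finset ι) (x y : ι → ℝ) {δ₁ δ₂ : ℝ} (hδ2 : 0 < δ₂) (hδ21 : δ₂ ≤ 1)
    (hδ12 : δ₂ ≤ δ₁) (hK : 1 ≤ δ₂ * K) {x₀ y₀ : ℝ}
    (hball : ∀ i ∈ R, |x i - x₀| ≤ δ₁ ∧ |y i - y₀| ≤ δ₁) (hsep : Sep R x y δ₂) :
    ∑ i ∈ R, hh W (x i) (y i) ≤ C1 * X ^ 2 * (δ₁ / δ₂) := by
  have hn : (0 : ℝ) < W.card := by exact_mod_cast hW.card_pos
  have hδ1 : 0 < δ₁ := lt_of_lt_of_le hδ2 hδ12
  have hC0 := one_le_C0
  have hinv : 1 ≤ 1 / δ₂ := by rw [le_div_iff₀ hδ2]; linarith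
  -- `s`
  set s : ℕ := ⌈1 / δ₂⌉₊ with hs
  have hs1 : 1 / δ₂ ≤ s := Nat.le_ceil _
  have hs2 : (s : ℝ) ≤ 2 / δ₂ := by
    have h1 : (s : ℝ) < 1 / δ₂ + 1 := Nat.ceil_lt_add_one (by positivity)
    have h2 : 2 / δ₂ = 1 / δ₂ + 1 / δ₂ := by ring
    rw [h2]; linarith
  have hs0' : (1 : ℝ) ≤ s := hinv.trans hs1
  have hs0 : 0 < s := by
    have : (0 : ℝ) < s := by linarith
    exact_mod_cast this
  have hKinv : 1 / δ₂ ≤ K := by
    rw [div_le_iff₀ hδ2]; linarith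
  have hsK : s ≤ K := Nat.ceil_le.mpr hKinv
  -- `t`
  set t : ℕ := max 1 ⌊1 / (12 * δ₁)⌋₊ with ht
  have ht0 : 0 < t := lt_of_lt_of_le one_pos (le_max_left _ _)
  have ht0' : (0 : ℝ) < t := by exact_mod_cast ht0
  have ht1 : t = 1 ∨ 12 * (t : ℝ) * δ₁ ≤ 1 := by
    rcases le_or_gt ⌊1 / (12 * δ₁)⌋₊ 1 with h | h
    · left; exact max_eq_left h
    · right
      have h1 : t = ⌊1 / (12 * δ₁)⌋₊ := max_eq_right h.le
      have h2 : (t : ℝ) ≤ 1 / (12 * δ₁) := by rw [h1]; exact Nat.floor_le (by positivity)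
      rw [le_div_iff₀ (by positivity)] at h2
      linarith
  have ht2 : 1 / (24 * δ₁) ≤ t := by
    have h1 : 1 / (12 * δ₁) < ⌊1 / (12 * δ₁)⌋₊ + 1 := Nat.lt_floor_add_one _
    have h2 : ((⌊1 / (12 * δ₁)⌋₊ : ℕ) : ℝ) ≤ t := by exact_mod_cast le_max_right _ _
    have h3 : (1 : ℝ) ≤ t := by exact_mod_cast le_max_left _ _
    have h4 : 1 / (12 * δ₁) = 2 * (1 / (24 * δ₁)) := by field_simp; norm_num
    linarith
  have hts : t ≤ s := by
    apply max_le hs0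
    apply Nat.floor_le_of_le
    refine le_trans ?_ hs1
    apply one_div_le_one_div_of_le hδ2
    linarith
  have htK : t ≤ K := hts.trans hsK
  have hcell := fun B => cell_ls R x y hδ2 hδ21 hsep hball ht0 ht1 s (B.1 * s, B.2 * s) (pt s W B)
    (fun w hw => pt_box hs0 hw) (ν := X * t) (fun z => by
      refine le_trans ?_ (dens t ht0 htK z)
      norm_cast
      exact Finset.card_le_card (Finset.filter_subset_filter _ (pt_subset s W B)))
  have h1 : ∑ i ∈ R, hh W (x i) (y i) ≤ 9 * X / (s * W.card) *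
      ∑ B ∈ W.image (pc s), ∑ i ∈ R, ‖es (pt s W B) (x i) (y i)‖ ^ 2 := by
    rw [Finset.sum_comm, Finset.mul_sum]
    exact Finset.sum_le_sum (fun i _ => hh_le_local hs0 hW (by linarith) (conn s hsK) _ _)
  have h2 : ∑ B ∈ W.image (pc s), ∑ i ∈ R, ‖es (pt s W B) (x i) (y i)‖ ^ 2
      ≤ 36 * C0 * (s : ℝ) ^ 2 * X * W.card / t := by
    calc ∑ B ∈ W.image (pc s), ∑ i ∈ R, ‖es (pt s W B) (x i) (y i)‖ ^ 2
        ≤ ∑ B ∈ W.image (pc s), (36 * C0 * (s : ℝ) ^ 2 * X / t) * ((pt s W B).card : ℝ) := by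
          refine Finset.sum_le_sum (fun B _ => (hcell B).trans ?_)
          have h3 : (((s + t : ℕ) : ℝ) + 1 / δ₂) ^ 2 ≤ 9 * (s : ℝ) ^ 2 := by
            have h4 : ((s + t : ℕ) : ℝ) + 1 / δ₂ ≤ 3 * s := by
              push_cast
              have : (t : ℝ) ≤ s := by exact_mod_cast hts
              linarith
            calc (((s + t : ℕ) : ℝ) + 1 / δ₂) ^ 2 ≤ (3 * (s : ℝ)) ^ 2 :=
                  pow_le_pow_left₀ (by positivity) h4 2
              _ = 9 * (s : ℝ) ^ 2 := by ring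
          have h5 : 4 * C0 * (((s + t : ℕ) : ℝ) + 1 / δ₂) ^ 2 * (X * t) * ((pt s W B).card : ℝ) / (t : ℝ) ^ 2
              = (((s + t : ℕ) : ℝ) + 1 / δ₂) ^ 2 * (4 * C0 * X * ((pt s W B).card : ℝ) / t) := by
            field_simp
          rw [h5]
          have h6 : (36 * C0 * (s : ℝ) ^ 2 * X / t) * ((pt s W B).card : ℝ)
              = (9 * (s : ℝ) ^ 2) * (4 * C0 * X * ((pt s W B).card : ℝ) / t) := by ring
          rw [h6]
          exact mul_le_mul_of_nonneg_right h3 (by positivity)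
      _ = 36 * C0 * (s : ℝ) ^ 2 * X * W.card / t := by
          rw [← Finset.mul_sum, card_split]; ring
  calc ∑ i ∈ R, hh W (x i) (y i)
      ≤ 9 * X / (s * W.card) * (36 * C0 * (s : ℝ) ^ 2 * X * W.card / t) :=
        h1.trans (mul_le_mul_of_nonneg_left h2 (by positivity))
    _ = 324 * C0 * X ^ 2 * (s / t) := by
        field_simp
        norm_num
    _ ≤ 324 * C0 * X ^ 2 * ((2 / δ₂) / (1 / (24 * δ₁))) := by
        apply mul_le_mul_of_nonneg_left _ (by positivity)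
        exact div_le_div₀ (by positivity) hs2 (by positivity) ht2
    _ = C1 * X ^ 2 * (δ₁ / δ₂) := by
        rw [C1]
        field_simp
        norm_num

end Vale.Agent.P015.H210
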